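import Vale.Agent.P269L.U.Main
import Vale.Agent.P269.Pub.T2

/-!
# Cycles with multiplicities in the public vocabulary
-/

set_option linter.unusedSectionVars false

namespace Vale.Agent.P269L.U

open Set Function Topology Filter P291Z P269 P269.Holo P269.Orb

section slice

variable {G T X A : Type} [Group G] [TopologicalSpace G] [TopologicalSpace T] [MulAction G T]
  [TopologicalSpace X] [NormedAddCommGroup A] [NormedSpace ℂ A] {d : ℕ} {ι : T → A} {π : T → X}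
  {φ : (Fin d → ℂ) → T}

/-- Point cocycles and values in a slice of a possibly singular space. -/
theorem slice_pt (h : PreOrb G ι) (hπ : IsQuo G π) (hφ : IsSlice G ι φ) : PCh (π ∘ φ) ∧
    (∃ a, supp (δ a) = ∅ ∧ supp a ⊆ {π (φ 0)} ∧ LocCo (pull (π ∘ φ) a) 1) ∧
      ∀ γ : BM X, ∃ μ, Vl γ (π ∘ φ) μ := by
  have := h.niceX hπ
  have h1 := h.holOrb_sm d
  have := h1.orb.contSMul
  have h2 := (h.isOpen_sm d).isOpenEmbedding_subtypeVal
  have hq := isQuo_mk (G := G) (T := h.sm d)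
  have := h1.niceX hq
  obtain ⟨J, h3⟩ := hq.exists_map hπ (j := Subtype.val) fun _ _ => rfl
  have h4 := hq.isOpenEmbedding hπ h2 (fun _ _ => rfl) h3
  obtain ⟨φ', k4, k5, k6⟩ := hφ.lift_lh (T' := h.sm d) (j := Subtype.val) (t := ⟨_, φ, hφ, rfl⟩)
    (fun _ _ => rfl) (h2.lh _) rfl
  have e : ∀ᶠ z in 𝓝 0, (J ∘ Q.mk G ∘ φ') z = (π ∘ φ) z :=
    k6.mono fun z hz => (h3 _).trans (congrArg π hz)
  have g := h1.gch hq k4
  obtain ⟨b, k7, k8⟩ := g.gen
  obtain ⟨b', h7, h8, h9⟩ := exists_ext_open' h4 k7.zc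
  refine ⟨(g.pch.comp h4.continuous h4.injective).congr (e.mono fun _ => Eq.symm),
    ⟨b', h7.2, h8.trans (image_subset_iff.2 fun x hx =>
      (congrArg J (k7.pt hx)).trans e.self_of_nhds), ?_⟩, fun γ =>
    ⟨_, ((Vl.of_one g k7.cyc k7.pt k8 rfl (h1.val hq k4)).of_res h4).congr e⟩⟩
  have := k8.of_van g.pch.cont (h9 _)
  rw [pull_pull] at this
  exact this.pull_congr (e.mono fun _ => Eq.symm)

theorem Vl.unique (h : PreOrb G ι) (hπ : IsQuo G π) (hφ : IsSlice G ι φ) {γ : BM X} {μ μ' : ℂ}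
    (h1 : Vl γ (π ∘ φ) μ) (h2 : Vl γ (π ∘ φ) μ') : μ = μ' := by
  obtain ⟨-, ⟨a, k1, k2, k3⟩, -⟩ := slice_pt h hπ hφ
  rw [← mul_one μ, ← h1 a 1 k1 k2 k3, h2 a 1 k1 k2 k3, mul_one]

/-- The value does not depend on the slice through a point of the orbit. -/
theorem Vl.slice (h : PreOrb G ι) (hπ : IsQuo G π) (hφ : IsSlice G ι φ) {φ' : (Fin d → ℂ) → T}
    (hφ' : IsSlice G ι φ') (e : π (φ 0) = π (φ' 0)) {γ : BM X} {μ : ℂ} (h1 : Vl γ (π ∘ φ) μ) :
    Vl γ (π ∘ φ') μ := by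
  have := h.grp
  have := h.proper
  obtain ⟨g, hg⟩ := (hπ.eq_iff _ _).1 e
  obtain ⟨θ, h3, h4, -⟩ := hφ.exists_trans hφ' hg (h.hol _ _) (h.hol _ _)
  exact h1.rep ⟨θ, h3, h4.mono fun z ⟨g', hz⟩ => by
    rw [comp_apply, comp_apply, ← hπ.smul g, ← hz, hπ.smul]⟩

end slice

variable {A W : Type} [NormedRing A] [NormedAlgebra ℂ A] [NormedAddCommGroup W] [NormedSpace ℂ W]

/-- `β` is a cycle of dimension `d` on the orbit space whose multiplicities satisfy `m`. -/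
def Cyc (act : A → W → W) (S : Set W) (d : ℕ) (m : W → ℂ → Prop) (β : Pub.Bm (Pub.Quo act S)) :
    Prop :=
  Pub.IsBM β ∧ (∀ j a, j ≠ 2 * (d : ℤ) → Pub.IsDeg j a → β a = 0) ∧
    ∀ (U : Set (Fin d → ℂ)) (φ : U → S) (h : 0 ∈ U) (Φ : (Fin d → ℂ) → W), IsOpen U →
      AnalyticOnNhd ℂ Φ U → (∀ z, (φ z).1 = Φ z.1) →
      let F := fun y : A × (Fin d → ℂ) => act y.1 (Φ y.2)
      Injective (fderiv ℂ F (1, 0)) → 𝓝[S] (Φ 0) ≤ map F (𝓝 (1, 0)) →
      let ψ : U → Pub.Quo act S := fun z => Quot.mk _ (φ z)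
      ∀ a, Pub.Zc a → (∀ y, Pub.supp a y → y = ψ ⟨0, h⟩) →
        Pub.Cohom {z | z.1 = 0} (Pub.pull ψ a) (Pub.pull Subtype.val (Pub.tau d)) →
        m (Φ 0) (β a * Nat.card {a // IsUnit a ∧ act a (Φ 0) = Φ 0})

variable {act : A → W → W} {S : Set W} [IsAct act S] {d : ℕ}

theorem card_stab (x : Sp act S) :
    Nat.card {a // IsUnit a ∧ act a x.val = x.val} = stab Aˣ x :=
  (Nat.card_congr (Equiv.ofBijective (fun g : MulAction.stabilizer Aˣ x =>
    (⟨g.1, g.1.isUnit, congrArg Sp.val g.2⟩ : {a // IsUnit a ∧ act a x.val = x.val}))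
    ⟨fun _ _ e => Subtype.ext (Units.ext (congrArg Subtype.val e)),
      fun ⟨_, ⟨g, rfl⟩, e⟩ => ⟨⟨g, Sp.ext e⟩, rfl⟩⟩)).symm

variable [FiniteDimensional ℂ A] [FiniteDimensional ℂ W]

theorem nhds_one [CompleteSpace A] {E : Type} [TopologicalSpace E] (y : E) :
    𝓝 ((1 : A), y) = map (fun p : A × E => (((expU p.1 : Aˣ) : A), p.2)) (𝓝 (0, y)) := by
  have := (Units.isOpenEmbedding_val (R := A)).prodMap (IsOpenEmbedding.id (X := E))
  rw [← show map _ _ = 𝓝 ((1 : A), y) from this.map_nhds_eq (1, y), ← isExp_expU.map_nhds_prod,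
    map_map]
  rfl

theorem map_val (x : Sp act S) : map Sp.val (𝓝 x) = 𝓝[S] x.val := by
  rw [Sp.isEmbedding_val.map_nhds_eq, Sp.range_val]

variable [ProperSMul Aˣ (Sp act S)]

/-- A chart of the statement is a slice. -/
theorem exists_slK [CompleteSpace A] {E : Type} [NormedAddCommGroup E] [NormedSpace ℂ E]
    [FiniteDimensional ℂ E] {U : Set E} {φ : U → S} (h0 : 0 ∈ U)
    {Φ : E → W} (hU : IsOpen U) (h1 : AnalyticOnNhd ℂ Φ U) (h2 : ∀ z, (φ z).1 = Φ z.1)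
    (h3 : Injective (fderiv ℂ (fun y : A × E => act y.1 (Φ y.2)) (1, 0)))
    (h4 : 𝓝[S] (Φ 0) ≤ map (fun y : A × E => act y.1 (Φ y.2)) (𝓝 (1, 0))) :
    ∃ φ' : E → Sp act S, (∀ z : U, φ' z = φ z) ∧ IsSlK (expU : A → Aˣ) Sp.val φ' 0 := by
  classical
  let φ' : E → Sp act S := fun z => if hz : z ∈ U then φ ⟨z, hz⟩ else φ ⟨0, h0⟩
  have e1 : ∀ z : U, φ' z = φ z := fun z => dif_pos z.2
  have hU' := hU.mem_nhds h0
  have e2 : ∀ z ∈ U, (φ' z).val = Φ z := fun z hz => (congrArg Sp.val (e1 ⟨z, hz⟩)).trans (h2 _)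
  have e3 : ∀ z ∈ U, Φ =ᶠ[𝓝 z] fun z => (φ' z).val := fun z hz => by
    filter_upwards [hU.mem_nhds hz] with z hz using (e2 z hz).symm
  have e4 : ∀ z ∈ U, ContinuousAt φ' z := fun z hz =>
    Sp.isEmbedding_val.isInducing.continuousAt_iff.2 ((h1 z hz).continuousAt.congr (e3 z hz))
  have e6 : AnalyticAt ℂ (fun z => (φ' z).val) 0 := (h1 0 h0).congr (e3 0 h0)
  have e7 := (Sp.holAct (φ' 0)).an_fam (e4 0 h0) e6
  have e8 := (continuousAt_snd (p := ((0 : A), (0 : E)))).eventually hU'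
  refine ⟨φ', e1, IsParam.of_map_nhds ?_
    (Eventually.of_forall fun _ => Sp.continuous_val.continuousAt) e7 ?_ ?_⟩
  · filter_upwards [e8] with p hp
      using (isExp_expU.cont.comp continuous_fst).continuousAt.smul
        ((e4 _ hp).comp continuousAt_snd)
  · rw [(Sp.holAct (φ' 0)).fderiv_fam isExp_expU (e4 0 h0) e6, ← (e3 0 h0).fderiv_eq,
      ← Sp.fderiv_act _ (e2 0 h0).symm (h1 0 h0)
        (by filter_upwards [hU'] with z hz using e2 z hz ▸ Sp.val_mem _)]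
    exact h3
  · rw [← Filter.map_le_map_iff Sp.isEmbedding_val.injective, map_val, isExp_expU.zero, one_smul, e2 0 h0,
      map_map]
    rw [nhds_one, map_map] at h4
    refine h4.trans (map_congr (e8.mono fun p hp => ?_)).le
    exact congrArg (act _) (e2 _ hp).symm

/-- A slice is a chart of the statement. -/
theorem chart_of_slK [CompleteSpace A] {E : Type} [NormedAddCommGroup E] [NormedSpace ℂ E]
    {φ : E → Sp act S} (h : IsSlK (expU : A → Aˣ) Sp.val φ 0) :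
    Injective (fderiv ℂ (fun y : A × E => act y.1 (φ y.2).val) (1, 0)) ∧
      𝓝[S] (φ 0).val ≤ map (fun y : A × E => act y.1 (φ y.2).val) (𝓝 (1, 0)) := by
  constructor
  · rw [Sp.fderiv_act (Φ := fun z => (φ z).val) (φ 0) rfl (h.an isExp_expU)
      (Eventually.of_forall fun z => Sp.val_mem _)]
    exact h.injective isExp_expU (Sp.holAct _)
  · have h1 := (IsParam.lh h).map_nhds
    rw [isExp_expU.zero, one_smul] at h1
    rw [← map_val, ← h1, nhds_one, map_map, map_map]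
    exact le_rfl

variable [LocallyCompactSpace S]

/-- **The cycle clause of the statement in the language of slices.** -/
theorem cyc_fn (hf : ∀ x : Sp act S, Finite (MulAction.stabilizer Aˣ x)) {m : W → ℂ → Prop}
    {γ : BM (Quo act S)} : Cyc act S d m (Tf.fn γ) ↔ BM.IsDeg (2 * d) γ ∧
      ∀ φ : (Fin d → ℂ) → Sp act S, IsSlice Aˣ Sp.val φ →
        ∃ μ, Vl γ (Sp.mk ∘ φ) μ ∧ m (φ 0).val (μ * stab Aˣ (φ 0)) := by
  have := FiniteDimensional.complete ℂ A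
  have := FiniteDimensional.complete ℂ W
  have := nice_quo (act := act) (S := S)
  have hp := preOrb_sp (act := act) (S := S)
  refine (and_iff_right (Tf.isBM_fn γ)).trans (and_congr ⟨fun h j a hj ha => ?_,
    fun h j a hj ha => ?_⟩ ⟨fun h φ hφ => ?_, fun h U φ h0 Φ h1 h2 h3 h4 h5 a ha k1 k2 => ?_⟩)
  · exact (Tf.fn_val γ a).symm.trans (h j a.1 hj ha)
  · by_cases k : Pub.Bd a
    · obtain ⟨a, rfl⟩ := Tf.exists_val (X := Quo act S) k
      exact (Tf.fn_val γ a).trans (h j a hj ha)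
    · exact Tf.fn_of_not _ k
  · obtain ⟨h1, ⟨a, h2, h3, h4⟩, h5⟩ := slice_pt hp isQuo_sp hφ
    obtain ⟨μ, h5⟩ := h5 γ
    have h6 := IsSl.isSlK isExp_expU (Eventually.of_forall fun _ => Sp.continuous_val.continuousAt)
      (Sp.holAct _) (Sp.inf_injective_of_finite (hf _)) hφ
    obtain ⟨U, h7, h8, h9⟩ := _root_.eventually_nhds_iff.1
      ((h6.an isExp_expU).eventually_analyticAt.and h1)
    have h10 := h U (fun z => φ z) h9 (fun z => (φ z).val) h8 (fun z hz => (h7 z hz).1)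
      (fun _ => rfl) (chart_of_slK h6).1 (chart_of_slK h6).2 a.1 (Tf.zc_val.2 (Zc_of_pt h2 h3))
      (fun _ hy => h3 hy) (by
        have := h4.cohom_open (U := U) fun z hz e => Van.pull (h7 z hz).2.1 fun k =>
          e ((h7 z hz).2.2 (h3 k))
        rw [one_smul, pull_pull] at this
        rw [← Tf.val_tau]
        exact Tf.cohom_val.2 this)
    refine ⟨μ, h5, ?_⟩
    exact (congrArg (m _) (congrArg₂ (· * ·) ((Tf.fn_val γ a).trans ((h5 a 1 h2 h3 h4).trans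
      (mul_one μ))) (congrArg Nat.cast (card_stab _)))).mp h10
  · obtain ⟨φ', e1, e2⟩ := exists_slK h0 h1 h2 h3 h4 h5
    obtain ⟨μ, e3, e4⟩ := h φ' (e2.isSl isExp_expU)
    obtain ⟨a, ka, rfl⟩ := (Tf.zc_iff (X := Quo act S)).1 ha
    rw [← Tf.val_tau] at k2
    obtain ⟨b, k3, k4⟩ := (Tf.cohom_val (a := pull (fun z => (Quot.mk _ (φ z) : Quo act S)) a)
      (b := pull Subtype.val (tau d))).1 k2
    have e5 : (φ' 0).val = Φ 0 := (congrArg Sp.val (e1 ⟨0, h0⟩)).trans (h3 _)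
    have e6 : (Sp.mk ∘ φ') ∘ Subtype.val = fun z => Quot.mk _ (φ z) := funext fun z => congrArg Sp.mk (e1 z)
    have e7 := e3 a 1 ka.2 (fun y hy => (k1 y hy).trans (congrFun e6 ⟨0, h0⟩).symm)
      (LocCo.of_open h1 h0 locCo_tau (e := b) (fun z hz => Subtype.ext (k3 hz)) (by
        rw [pull_pull, e6]
        exact supp_eq_empty.1 k4 _))
    rw [← e5]
    exact (congrArg (m _) (congrArg₂ (· * ·) ((Tf.fn_val γ a).trans (e7.trans (mul_one μ)))
      (congrArg Nat.cast (card_stab _)))).mpr e4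

theorem cyc_iff (hf : ∀ x : Sp act S, Finite (MulAction.stabilizer Aˣ x)) {m : W → ℂ → Prop}
    {b : Pub.Bm (Pub.Quo act S)} : Cyc act S d m b ↔ ∃ γ : BM (Quo act S), Tf.fn γ = b ∧
      BM.IsDeg (2 * d) γ ∧ ∀ φ : (Fin d → ℂ) → Sp act S, IsSlice Aˣ Sp.val φ →
        ∃ μ, Vl γ (Sp.mk ∘ φ) μ ∧ m (φ 0).val (μ * stab Aˣ (φ 0)) :=
  ⟨fun h => let ⟨γ, e⟩ := (Tf.isBM_iff (X := Quo act S)).1 h.1; ⟨γ, e, (cyc_fn hf).1 (e ▸ h)⟩,
    fun ⟨_, e, h⟩ => e ▸ (cyc_fn hf).2 h⟩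

/-- **Uniqueness of the cycle with given multiplicities.** -/
theorem Cyc.unique (ho : Orb Aˣ (Sp act S)) (hS : ∀ x ∈ S, P287Q.H3.An S x)
    (hd : ∀ x ∈ S, ∃ U ∈ 𝓝 x, Mono.Small (2 * (d + Module.finrank ℂ A)) (U ∩ S))
    {m : W → ℂ → Prop} (hm : ∀ x, MfdAt S (Module.finrank ℂ A + d) x → ∀ z z', m x z → m x z' →
      z = z') {b b' : Pub.Bm (Pub.Quo act S)} (h : Cyc act S d m b) (h' : Cyc act S d m b') :
    b = b' := by
  have := FiniteDimensional.complete ℂ A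
  have := FiniteDimensional.complete ℂ W
  obtain ⟨γ, rfl, h1, h2⟩ := (cyc_iff ho.finite_stabilizer).1 h
  obtain ⟨γ', rfl, h3, h4⟩ := (cyc_iff ho.finite_stabilizer).1 h'
  refine congrArg Tf.fn (eq_of_vl (P287Q.H3.isAS_spA ho hS) (P287Q.H3.dim_spA ho hd) h1 h3
    fun φ hφ => ?_)
  obtain ⟨μ, k1, k2⟩ := h2 φ hφ
  obtain ⟨μ', k3, k4⟩ := h4 φ hφ
  have h6 := (IsSl.isSlK isExp_expU (Eventually.of_forall fun _ => Sp.continuous_val.continuousAt)
    (Sp.holAct _) (Sp.inf_injective_of_finite (ho.finite_stabilizer _)) hφ).isMfd isExp_expU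
  rw [Module.finrank_fin_fun] at h6
  have := ho.finite_stabilizer (φ 0)
  obtain rfl := mul_right_cancel₀ (Nat.cast_ne_zero.2 Nat.card_pos.ne')
    (hm _ ⟨Sp.val_mem _, h6⟩ _ _ k2 k4)
  exact ⟨μ, k1, k3⟩

/-- Slices pass through the points where `S` is a manifold. -/
theorem mfd_of_slice (hf : ∀ x : Sp act S, Finite (MulAction.stabilizer Aˣ x))
    {φ : (Fin d → ℂ) → Sp act S} (hφ : IsSlice Aˣ Sp.val φ) :
    MfdAt S (Module.finrank ℂ A + d) (φ 0).val := by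
  have := FiniteDimensional.complete ℂ A
  have := FiniteDimensional.complete ℂ W
  have h6 := (IsSl.isSlK isExp_expU (Eventually.of_forall fun _ => Sp.continuous_val.continuousAt)
    (Sp.holAct _) (Sp.inf_injective_of_finite (hf _)) hφ).isMfd isExp_expU
  rw [Module.finrank_fin_fun] at h6
  exact ⟨Sp.val_mem _, h6⟩

end Vale.Agent.P269L.U
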