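import Vale.Agent.P269.Mono.DgIntA
import Vale.Agent.P269L.Tx
import Vale.Agent.P269L.U.Txt

/-!
# The fundamental cycle of the text in the language of slices
-/

set_option linter.unusedSectionVars false

namespace Vale.Agent.P269L.U

open Set Function Topology Filter P291Z P269 P269.Holo P269.Orb

/-- The dimension of an analytic set is the dimension of its regular points. -/
theorem small_of_reg {E : Type} [NormedAddCommGroup E] [NormedSpace ℂ E] [FiniteDimensional ℂ E]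
    {S : Set E} {a : E} {n : ℕ} (h : P287Q.H3.An S a)
    (hn : ∀ᶠ x in 𝓝 a, ∀ j, MfdAt S j x → j ≤ n) : ∃ U ∈ 𝓝 a, Mono.Small (2 * n) (U ∩ S) := by
  have : ∀ k, (∃ U ∈ 𝓝 a, Mono.Small (2 * (n + k)) (U ∩ S)) →
      ∃ U ∈ 𝓝 a, Mono.Small (2 * n) (U ∩ S) := fun k => by
    induction k with
    | zero => exact id
    | succ k ih =>
      intro h1
      obtain ⟨U, h2, h3⟩ := P269L.H.top E S a (n + k) h h1
      exact ih ⟨_, inter_mem h2 hn, h3.mono fun z hz =>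
        ⟨hz.1.1, hz.2, fun e => absurd (hz.1.2 _ e) (by omega)⟩⟩
  exact this (Module.finrank ℂ E) ⟨univ, univ_mem, (Mono.small_finrank _).le (by
    rw [finrank_real_of_complex]; omega)⟩

variable {A W : Type} [NormedRing A] [NormedAlgebra ℂ A] [NormedAddCommGroup W] [NormedSpace ℂ W]
  {act : A → W → W} {S : Set W} [IsAct act S] [FiniteDimensional ℂ A] [FiniteDimensional ℂ W]
  [ProperSMul Aˣ (Sp act S)] [LocallyCompactSpace S] {m : W → ℂ → Prop}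

theorem deg_fn {X : Type} [TopologicalSpace X] {γ : BM X} {k : ℤ} :
    (∀ j a, j ≠ k → Pub.IsDeg j a → Tf.fn γ a = 0) ↔ BM.IsDeg k γ := by
  refine ⟨fun h j a hj ha => (Tf.fn_val γ a).symm.trans (h j a.1 hj ha), fun h j a hj ha => ?_⟩
  by_cases k : Pub.Bd a
  · obtain ⟨a, rfl⟩ := Tf.exists_val k
    exact (Tf.fn_val γ a).trans (h j a hj ha)
  · exact Tf.fn_of_not _ k

/-- **The slice clause of the text.** -/
theorem slc_fn (hf : ∀ x : Sp act S, Finite (MulAction.stabilizer Aˣ x)) {γ : BM (Quo act S)}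
    {r : ℕ} {q : Prop} : Tx.Slc (E := Fin r → ℂ) act S m (Pub.tau r) q (Tf.fn γ) ↔
      ∀ φ : (Fin r → ℂ) → Sp act S, IsSlice Aˣ Sp.val φ →
        q ∧ ∃ μ, Vl γ (Sp.mk ∘ φ) μ ∧ m (φ 0).val (μ * stab Aˣ (φ 0)) := by
  have := FiniteDimensional.complete ℂ A
  have := FiniteDimensional.complete ℂ W
  have := nice_quo (act := act) (S := S)
  have hp := preOrb_sp (act := act) (S := S)
  refine ⟨fun h φ hφ => ?_, fun h U φ h0 Φ h1 h2 h3 h4 h5 => ?_⟩
  · obtain ⟨h1, ⟨a, h2, h3, h4⟩, h5⟩ := slice_pt hp isQuo_sp hφ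
    obtain ⟨μ, h5⟩ := h5 γ
    have h6 := IsSl.isSlK isExp_expU (Eventually.of_forall fun _ => Sp.continuous_val.continuousAt)
      (Sp.holAct _) (Sp.inf_injective_of_finite (hf _)) hφ
    obtain ⟨U, h7, h8, h9⟩ := _root_.eventually_nhds_iff.1
      ((h6.an isExp_expU).eventually_analyticAt.and h1)
    obtain ⟨hq, h10⟩ := h U (fun z => φ z) h9 (fun z => (φ z).val) h8 (fun z hz => (h7 z hz).1)
      (fun _ => rfl) (chart_of_slK h6).1 (chart_of_slK h6).2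
    have h11 := h10 a.1 (Tf.zc_val.2 (Zc_of_pt h2 h3)) (fun _ hy => h3 hy) (by
      have := h4.cohom_open (U := U) fun z hz e => Van.pull (h7 z hz).2.1 fun k =>
        e ((h7 z hz).2.2 (h3 k))
      rw [one_smul, pull_pull] at this
      rw [← Tf.val_tau]
      exact Tf.cohom_val.2 this)
    exact ⟨hq, μ, h5, (congrArg (m _) (congrArg₂ (· * ·) ((Tf.fn_val γ a).trans
      ((h5 a 1 h2 h3 h4).trans (mul_one μ))) (congrArg Nat.cast (card_stab _)))).mp h11⟩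
  · obtain ⟨φ', e1, e2⟩ := exists_slK h0 h1 h2 h3 h4 h5
    obtain ⟨hq, μ, e3, e4⟩ := h φ' (e2.isSl isExp_expU)
    refine ⟨hq, fun a ha k1 k2 => ?_⟩
    obtain ⟨a, ka, rfl⟩ := (Tf.zc_iff (X := Quo act S)).1 ha
    rw [← Tf.val_tau] at k2
    obtain ⟨b, k3, k4⟩ := (Tf.cohom_val (a := pull (fun z => (Quot.mk _ (φ z) : Quo act S)) a)
      (b := pull Subtype.val (tau r))).1 k2
    have e5 : (φ' 0).val = Φ 0 := (congrArg Sp.val (e1 ⟨0, h0⟩)).trans (h3 _)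
    have e6 : (Sp.mk ∘ φ') ∘ Subtype.val = fun z => Quot.mk _ (φ z) :=
      funext fun z => congrArg Sp.mk (e1 z)
    have e7 := e3 a 1 ka.2 (fun y hy => (k1 y hy).trans (congrFun e6 ⟨0, h0⟩).symm)
      (LocCo.of_open h1 h0 locCo_tau (e := b) (fun z hz => Subtype.ext (k3 hz)) (by
        rw [pull_pull, e6]
        exact supp_eq_empty.1 k4 _))
    rw [← e5]
    exact (congrArg (m _) (congrArg₂ (· * ·) ((Tf.fn_val γ a).trans (e7.trans (mul_one μ)))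
      (congrArg Nat.cast (card_stab _)))).mpr e4

/-- `γ` is the cycle with multiplicities `m`, in the language of slices. -/
def Cy (act : A → W → W) (S : Set W) [IsAct act S] (m : W → ℂ → Prop) (γ : BM (Quo act S)) : Prop :=
  ∃ d : ℕ, BM.IsDeg (2 * d) γ ∧ ∀ (r : ℕ) (φ : (Fin r → ℂ) → Sp act S), IsSlice Aˣ Sp.val φ →
    r = d ∧ ∃ μ, Vl γ (Sp.mk ∘ φ) μ ∧ m (φ 0).val (μ * stab Aˣ (φ 0))

theorem isCyc_fn (hf : ∀ x : Sp act S, Finite (MulAction.stabilizer Aˣ x)) {γ : BM (Quo act S)} :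
    Tx.IsCyc act S m (Tf.fn γ) ↔ Cy act S m γ :=
  (and_iff_right (Tf.isBM_fn γ)).trans (exists_congr fun _ => and_congr deg_fn
    (forall_congr' fun _ => slc_fn hf))

theorem isCyc_iff (hf : ∀ x : Sp act S, Finite (MulAction.stabilizer Aˣ x))
    {b : Pub.Bm (Pub.Quo act S)} :
    Tx.IsCyc act S m b ↔ ∃ γ : BM (Quo act S), Tf.fn γ = b ∧ Cy act S m γ :=
  ⟨fun h => let ⟨γ, e⟩ := (Tf.isBM_iff (X := Quo act S)).1 h.1; ⟨γ, e, (isCyc_fn hf).1 (e ▸ h)⟩,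
    fun ⟨_, e, h⟩ => e ▸ (isCyc_fn hf).2 h⟩

/-- Slices exist at the points where `S` is a manifold. -/
theorem slice_of_mfd (hf : ∀ x : Sp act S, Finite (MulAction.stabilizer Aˣ x)) {x : W} {j : ℕ}
    (h : MfdAt S j x) : ∃ (r : ℕ) (φ : (Fin r → ℂ) → Sp act S), IsSlice Aˣ Sp.val φ ∧
      (φ 0).val = x ∧ Module.finrank ℂ A + r = j := by
  have := FiniteDimensional.complete ℂ A
  have := FiniteDimensional.complete ℂ W
  obtain ⟨hx, h⟩ := h
  have h1 : IsMfd Sp.val j (Sp.of act x hx) := h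
  obtain ⟨r, hr⟩ := Nat.exists_eq_add_of_le (h1.finrank_le isExp_expU (Sp.holAct _)
    (Sp.inf_injective_of_finite (hf _)))
  obtain ⟨φ, h2, h3⟩ := Sp.exists_slK h1 (hf _) hr.symm
  exact ⟨r, φ, h3.isSl isExp_expU, congrArg Sp.val h2, hr.symm⟩

/-- If all slices have dimension `d`, then `S` has dimension `d + dim A`. -/
theorem small_of_slice (hf : ∀ x : Sp act S, Finite (MulAction.stabilizer Aˣ x))
    (hS : ∀ x ∈ S, P287Q.H3.An S x) {d : ℕ}
    (hd : ∀ (r : ℕ) (φ : (Fin r → ℂ) → Sp act S), IsSlice Aˣ Sp.val φ → r ≤ d) :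
    ∀ x ∈ S, ∃ U ∈ 𝓝 x, Mono.Small (2 * (d + Module.finrank ℂ A)) (U ∩ S) :=
  fun x hx => small_of_reg (hS x hx) (.of_forall fun _ _ h => by
    obtain ⟨r, φ, h1, -, h2⟩ := slice_of_mfd hf h
    have := hd r φ h1
    omega)

/-- A nonempty analytic set has a slice. -/
theorem exists_slice (hf : ∀ x : Sp act S, Finite (MulAction.stabilizer Aˣ x)) {x : W}
    (hx : x ∈ S) (hS : P287Q.H3.An S x) :
    ∃ (r : ℕ) (φ : (Fin r → ℂ) → Sp act S), IsSlice Aˣ Sp.val φ := by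
  obtain ⟨y, hy⟩ := closure_nonempty_iff.1 ⟨x, (P287Q.H3.stReg W S x hS).1.self_of_nhds hx⟩
  simp only [mem_iUnion] at hy
  obtain ⟨j, -, hy⟩ := hy
  obtain ⟨r, φ, h, -⟩ := slice_of_mfd hf hy
  exact ⟨r, φ, h⟩

/-- **Uniqueness of the cycle with given multiplicities.** -/
theorem Cy.unique (ho : Orb Aˣ (Sp act S)) (hS : ∀ x ∈ S, P287Q.H3.An S x)
    (hm : ∀ j x, MfdAt S j x → ∀ z z', m x z → m x z' → z = z') {γ γ' : BM (Quo act S)}
    (h : Cy act S m γ) (h' : Cy act S m γ') : γ = γ' := by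
  obtain ⟨d, h1, h2⟩ := h
  obtain ⟨d', h3, h4⟩ := h'
  rcases S.eq_empty_or_nonempty with e | ⟨x, hx⟩
  · have : IsEmpty (Sp act S) := ⟨fun x => e.le x.val_mem⟩
    have := (isQuo_sp (act := act) (S := S)).surj.isEmpty
    exact BM_eq_of_isEmpty _ _
  obtain ⟨r, φ, hφ⟩ := exists_slice ho.finite_stabilizer hx (hS x hx)
  obtain rfl : d = d' := (h2 r φ hφ).1.symm.trans (h4 r φ hφ).1
  refine eq_of_vl (P287Q.H3.isAS_spA ho hS) (P287Q.H3.dim_spA ho (small_of_slice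
    ho.finite_stabilizer hS fun r φ hφ => (h2 r φ hφ).1.le)) h1 h3 fun φ hφ => ?_
  obtain ⟨-, μ, k1, k2⟩ := h2 _ φ hφ
  obtain ⟨-, μ', k3, k4⟩ := h4 _ φ hφ
  have := ho.finite_stabilizer (φ 0)
  obtain rfl := mul_right_cancel₀ (Nat.cast_ne_zero.2 Nat.card_pos.ne')
    (hm _ _ (mfd_of_slice ho.finite_stabilizer hφ) _ _ k2 k4)
  exact ⟨μ, k1, k3⟩

/-- **Uniqueness of the cycle of the text.** -/
theorem isCyc_unique (ho : Orb Aˣ (Sp act S)) (hS : ∀ x ∈ S, P287Q.H3.An S x)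
    (hm : ∀ j x, MfdAt S j x → ∀ z z', m x z → m x z' → z = z') {b b' : Pub.Bm (Pub.Quo act S)}
    (h : Tx.IsCyc act S m b) (h' : Tx.IsCyc act S m b') : b = b' := by
  obtain ⟨γ, rfl, h1⟩ := (isCyc_iff ho.finite_stabilizer).1 h
  obtain ⟨γ', rfl, h2⟩ := (isCyc_iff ho.finite_stabilizer).1 h'
  exact congrArg Tf.fn (h1.unique ho hS hm h2)

theorem vl_iff {X : Type} [TopologicalSpace X] {γ : BM X} {d : ℕ} {ψ : (Fin d → ℂ) → X} {n : ℂ}
    (hn : n ≠ 0) : (∃ μ, Vl γ ψ μ ∧ μ * n = 1) ↔ Val γ ψ n :=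
  ⟨fun ⟨μ, h, e⟩ a c h1 h2 h3 => by rw [h a c h1 h2 h3, ← mul_assoc, mul_comm n, e, one_mul],
    fun h => ⟨n⁻¹, fun a c h1 h2 h3 => by rw [← h a c h1 h2 h3, inv_mul_cancel_left₀ hn],
      inv_mul_cancel₀ hn⟩⟩

/-- **The fundamental class of the text**, any finite stabilisers. -/
theorem isFund_fn (hf : ∀ x : Sp act S, Finite (MulAction.stabilizer Aˣ x)) {γ : BM (Quo act S)} :
    Tx.IsFund act S (Tf.fn γ) ↔ ∃ d : ℕ, Orb.IsFund (slCh Aˣ Sp.val Sp.mk d) γ ∧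
      ∀ (r : ℕ) (φ : (Fin r → ℂ) → Sp act S), IsSlice Aˣ Sp.val φ → r = d := by
  have hn : ∀ x : Sp act S, ((stab Aˣ x : ℕ) : ℂ) ≠ 0 := fun x =>
    haveI := hf x
    Nat.cast_ne_zero.2 Nat.card_pos.ne'
  refine (isCyc_fn hf).trans (exists_congr fun d => ⟨fun ⟨h1, h2⟩ => ⟨⟨h1, ?_⟩,
    fun r φ hφ => (h2 r φ hφ).1⟩, fun ⟨h1, h2⟩ => ⟨h1.1, fun r φ hφ => ?_⟩⟩)
  · rintro _ _ ⟨φ, hφ, rfl, rfl⟩
    exact (vl_iff (hn _)).1 (h2 d φ hφ).2
  · obtain rfl := h2 r φ hφ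
    exact ⟨rfl, (vl_iff (hn _)).2 (h1.2 _ _ ⟨φ, hφ, rfl, rfl⟩)⟩

/-- The new fundamental class is an old one. -/
theorem isFund_old (hf : ∀ x : Sp act S, Finite (MulAction.stabilizer Aˣ x))
    {b : Pub.Bm (Pub.Quo act S)} (h : Tx.IsFund act S b) : Pub.IsFund act S b := by
  obtain ⟨γ, rfl⟩ := (Tf.isBM_iff (X := Quo act S)).1 h.1
  obtain ⟨d, h1, h2⟩ := (isFund_fn hf).1 h
  exact Tf.isFund_fn.2 (isFund_of_slCh h1 h2)

/-- On an orbifold the fundamental class is the one of the text. -/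
theorem isFund_hol {d : ℕ} (h : HolOrb Aˣ (Sp.val : Sp act S → W) d) :
    Tx.IsFund act S (Tf.fn (fundQ Aˣ Sp.val Sp.mk d)) :=
  (isFund_fn h.orb.finite_stabilizer).2 ⟨d, h.isFund isQuo_sp,
    fun _ _ hφ => h.preOrb.dim_eq ⟨_, hφ, rfl⟩ (h.slice _)⟩

/-- **For free actions the two fundamental classes agree.** -/
theorem isFund_free (hf : ∀ (x : Sp act S) (g : Aˣ), g • x = x → g = 1)
    {b : Pub.Bm (Pub.Quo act S)} : Tx.IsFund act S b ↔ Pub.IsFund act S b := by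
  have := FiniteDimensional.complete ℂ A
  have := FiniteDimensional.complete ℂ W
  have h0 : ∀ x : Sp act S, Finite (MulAction.stabilizer Aˣ x) := fun x =>
    haveI : Subsingleton (MulAction.stabilizer Aˣ x) :=
      ⟨fun a b => Subtype.ext ((hf x _ a.2).trans (hf x _ b.2).symm)⟩
    inferInstance
  refine ⟨isFund_old h0, fun h => ?_⟩
  obtain ⟨γ, h1, rfl⟩ := Tf.isFund_iff.1 h
  obtain ⟨d, h2, h3⟩ := id h1
  refine (isFund_fn h0).2 ⟨d, ⟨h2, ?_⟩, fun r φ hφ => ?_⟩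
  · rintro _ _ ⟨φ, hφ, rfl, rfl⟩
    rw [stab_eq_one (hf _), Nat.cast_one]
    exact (h1.val hφ (hf _)).2
  · obtain ⟨U, -, k⟩ := (IsSl.isSlK isExp_expU
      (Eventually.of_forall fun _ => Sp.continuous_val.continuousAt) (Sp.holAct _)
      (Sp.inf_injective (Eventually.of_forall (hf _))) hφ).isChart (hf _) univ_mem
    exact (h3 _ _ _ k).1

/-- The same for the class of free proper actions. -/
theorem isFund_iff {A W : Type} [NormedRing A] [NormedAlgebra ℂ A] [NormedAddCommGroup W]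
    [NormedSpace ℂ W] [FiniteDimensional ℂ A] [FiniteDimensional ℂ W] {act : A → W → W} {S : Set W}
    (h : P269.Mono.FP act S) (b : Pub.Bm (Pub.Quo act S)) :
    Tx.IsFund act S b ↔ Pub.IsFund act S b :=
  haveI := h.lc
  isFund_free h.free

end Vale.Agent.P269L.U
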