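import Vale.Agent.P269L.H.An
import Vale.Agent.P269.Orb.Brg

/-!
# Classes of top degree on an analytic orbispace are determined by their values in slices
-/

namespace Vale.Agent.P269L.U

open Set Function Topology Filter P291Z P269 P269.Ch P269.Holo P269.Mono P269.Orb P287Q.H3

section an

variable {E : Type} [NormedAddCommGroup E] [NormedSpace ℂ E] [FiniteDimensional ℂ E] {S : Set E}
  {a : E}

/-- analytic sets of dimension zero are discrete -/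
theorem mfd_zero (h : An S a) (ha : a ∈ S) (hs : ∃ U ∈ 𝓝 a, Small 0 (U ∩ S)) : MfdAt S 0 a := by
  have := FiniteDimensional.complete ℂ E
  obtain ⟨U, hU, hs⟩ := hs
  obtain ⟨V, hV, h1⟩ := P269L.H.top (E × ℂ) (S ×ˢ univ) (a, 0) 0 (h.prod an_univ)
    ⟨U ×ˢ univ, prod_mem_nhds hU univ_mem, ((hs.prod (N := ℂ)).le (by simp)).mono
      fun z hz => ⟨⟨hz.1.1, hz.2.1⟩, trivial⟩⟩
  obtain ⟨z, h2, h3⟩ := (h1.image (f := Prod.snd) fun _ _ => contDiffAt_snd).exists_notMem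
    (by simp) ((Continuous.prodMk_right a).continuousAt hV)
  have h4 : MfdAt (S ×ˢ (univ : Set ℂ)) (0 + 1) (a, z) := by
    by_contra e
    exact h3 ⟨(a, z), ⟨h2, ⟨ha, trivial⟩, e⟩, rfl⟩
  have h5 : MfdAt (S ×ˢ ({z} : Set ℂ)) 0 (a, z) :=
    h4.sub (Φ := fun p => p.2 - z) (analyticAt_snd.sub analyticAt_const) (sub_self _)
      (fun b _ => Submodule.subset_span ⟨fun ε => (a, z + ε * b),
        ⟨analyticAt_const.prod (analyticAt_const.add (analyticAt_id.mul analyticAt_const)),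
          by simp, .of_forall fun _ => ⟨ha, trivial⟩⟩, by simp⟩)
      (.of_forall fun p => ⟨fun e => ⟨⟨e.1, trivial⟩, sub_eq_zero.2 e.2⟩,
        fun e => ⟨e.1.1, sub_eq_zero.1 e.2⟩⟩) (by simp)
  exact h5.iso (F := Prod.fst) (G := fun s => (s, z)) analyticAt_fst
    (analyticAt_id.prod analyticAt_const) (.of_forall fun _ e => ⟨e.1, Prod.ext rfl e.2.symm⟩)
    (.of_forall fun _ e => ⟨⟨e, rfl⟩, rfl⟩)

/-- the complement of the regular points of top dimension -/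
theorem cd_top {d : ℕ} (h : An S a) (hs : ∃ U ∈ 𝓝 a, Small (2 * d) (U ∩ S)) :
    ∃ U ∈ 𝓝 a, CD (2 * d - 2) (U ∩ (S \ Reg S d)) := by
  have := FiniteDimensional.complete ℂ E
  cases d with
  | zero =>
    obtain ⟨U, hU, hs⟩ := hs
    refine ⟨_, h.eventually.and (eventually_mem_nhds_iff.2 hU), cd_empty.mono fun z hz => ?_⟩
    exact hz.2.2 (mfd_zero hz.1.1 hz.2.1 ⟨U, hz.1.2, hs⟩)
  | succ m =>
    obtain ⟨U, hU, h1⟩ := P269L.H.top E S a m h hs
    exact ⟨U, hU, h1.cd.le (by push_cast; omega)⟩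

end an

variable {A : Type} [NormedAddCommGroup A] [NormedSpace ℂ A] {Y : Ch.Sp} {ι : Y.T → A} {d : ℕ}
  {τ : Y.T → Y.G} {t : Y.T}

theorem preOrb (hY : IsAS Y ι) : PreOrb Y.G ι :=
  ⟨inferInstance, inferInstance, inferInstance, hY.complete, hY.act⟩

/-- regular points of the slice -/
theorem slice_of_reg (hY : IsAS Y ι) (c : Coc Y ι τ t)
    (h : MfdAt (ι '' {s | τ s = 1}) d (ι t)) :
    ∃ φ : (Fin d → ℂ) → Y.T, IsSlice Y.G ι φ ∧ φ 0 = t ∧ ∀ z, τ (φ z) = 1 := by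
  obtain ⟨h0, ψ, ⟨h1, h2, w, h3, h4⟩, h5⟩ := h
  let e := (hY.emb.homeomorphImage {s | τ s = 1}).symm
  have e1 : ∀ y, ι (e y).1 = y.1 := fun y =>
    congrArg Subtype.val ((hY.emb.homeomorphImage {s | τ s = 1}).apply_symm_apply y)
  have e2 : e (ψ 0) = ⟨t, c.one⟩ := Subtype.ext (hY.inj ((e1 _).trans (congrArg Subtype.val h5)))
  have e3 : (e (ψ 0)).1 = t := congrArg Subtype.val e2
  obtain ⟨Φ, k1, k2⟩ := c.hol
  have k3 : Φ (ι t) = ι t := k2.self_of_nhds.symm.trans (congrArg ι c.ret_self)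
  have k4 : LH (fun x : Y.G × (Fin d → ℂ) => x.1 • (e (ψ x.2)).1) (1, 0) :=
    LH.comp' (quot_lh c.one c.cont c.eqv) ((LH.id 1).prodMap ((e.lh _).comp h1))
      (Prod.ext rfl e2)
  have k5 : Tendsto (fun x : Y.G × (Fin d → ℂ) => (e (ψ x.2)).1) (𝓝 (1, 0)) (𝓝 t) :=
    e3 ▸ (continuous_subtype_val.continuousAt.comp (e.continuous.continuousAt.comp
      h1.cont)).tendsto.comp (continuous_snd.tendsto _)
  have k6 := k4.cont.tendsto
  simp only [one_smul, e3] at k6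
  refine ⟨fun z => (e (ψ z)).1, ⟨k4, h2.congr (.of_forall fun z => (e1 _).symm),
    fun y => w (Φ y), ?_, ?_⟩, e3, fun z => (e (ψ z)).2⟩
  · simp only [e3]
    exact AnalyticAt.comp (g := w) (by rw [k3]; rwa [h5] at h3) k1
  · filter_upwards [k6.eventually k2, c.eqv' (continuous_fst.tendsto _) k5,
      (continuous_snd.tendsto' _ 0 rfl).eventually h4] with x b1 b2 b3
    rw [← b1, b2, (e (ψ x.2)).2, mul_one, inv_smul_smul, e1, b3]

/-- **the singular set has smaller dimension** -/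
theorem cd_sing (hY : IsAS Y ι) (hd : Dim Y ι d) :
    CD (2 * d - 2) (Y.π '' ((preOrb hY).sm d : Set Y.T))ᶜ := by
  refine CD.of_locally fun x _ => ?_
  obtain ⟨t, rfl⟩ := Y.surj x
  have := hY.fd
  obtain ⟨τ, c⟩ := hY.coc t
  obtain ⟨V, hV, h1⟩ := cd_top (c.an_slice hY) ((small_image_iff hY.emb).1 (hd t τ c))
  have h2 : ∀ᶠ s in 𝓝 t, τ s = 1 → Coc Y ι τ s :=
    (c.eventually hY).mono fun s hs e => by simpa only [e, inv_one, mul_one] using hs
  obtain ⟨hfin, U, a, b, h3, h4, h5, h6⟩ := exists_ts (quot_lh c.one c.cont c.eqv)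
    (continuous_subtype_val.continuousAt (inter_mem h2 (hY.cont.continuousAt hV)))
  have := Fintype.ofFinite (MulAction.stabilizer Y.G t)
  have h7 : IsEmbedding fun u : U => u.1.1 := IsEmbedding.subtypeVal.comp IsEmbedding.subtypeVal
  have : Nice U := Nice.of_isEmbedding h7 (isLocallyClosed_of_an_image hY.emb (by
    rintro _ ⟨u, rfl⟩
    obtain ⟨O, k1, k2⟩ := isOpen_induced_iff.1 h3
    refine (((h5 u.2).1 u.1.2).an_slice hY).image_congr hY.emb ?_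
    filter_upwards [k1.mem_nhds (k2.ge u.2)] with s hs
    exact ⟨fun e => ⟨⟨⟨s, e⟩, k2.le hs⟩, rfl⟩, fun ⟨v, e⟩ => e ▸ v.1.2⟩))
  have h8 := h6.isUC Y.isQuo
  have := FiniteDimensional.proper ℂ A
  have : Nice A := ⟨inferInstance, inferInstance, inferInstance⟩
  refine ⟨_, h8.isOpen_range.mem_nhds ⟨⟨_, h4⟩, rfl⟩, h8.cd inter_subset_right
    ((h1.preimage (hY.emb.comp h7)).mono fun u hu => ⟨(h5 u.2).2, ⟨_, u.1.2, rfl⟩, fun e => ?_⟩)⟩
  obtain ⟨φ, k1, k2, -⟩ := slice_of_reg hY ((h5 u.2).1 u.1.2) e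
  exact hu.1 ⟨_, ⟨φ, k1, k2⟩, rfl⟩

/-- `γ` takes the value `μ` on the orientation cocycle at the centre of `ψ`. -/
def Vl {X : Type} [TopologicalSpace X] (γ : BM X) (ψ : (Fin d → ℂ) → X) (μ : ℂ) : Prop :=
  ∀ a c, supp (δ a) = ∅ → supp a ⊆ {ψ 0} → LocCo (pull ψ a) c → ev γ a = μ * c

section vl

variable {X X' : Type} [TopologicalSpace X] [TopologicalSpace X'] {γ γ' : BM X}
  {ψ ψ' : (Fin d → ℂ) → X} {μ μ' : ℂ}

theorem Vl.sub (h : Vl γ ψ μ) (h' : Vl γ' ψ μ') : Vl (γ - γ') ψ (μ - μ') :=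
  fun a c h1 h2 h3 => by rw [sub_ev, h a c h1 h2 h3, h' a c h1 h2 h3, sub_mul]

theorem Vl.rep (h : Vl γ ψ μ) (e : Rep ψ ψ') : Vl γ ψ' μ :=
  fun a c h1 h2 h3 => h a c h1 (e.zero ▸ h2) (e.locCo h3)

theorem Vl.congr (h : Vl γ ψ μ) (e : ∀ᶠ z in 𝓝 0, ψ z = ψ' z) : Vl γ ψ' μ := h.rep (Rep.of_eq e)

theorem Vl.res [Nice X] {j : X' → X} (hj : IsOpenEmbedding j) {ψ : (Fin d → ℂ) → X'}
    (hψ : ContinuousAt ψ 0) (h : Vl γ (j ∘ ψ) μ) : Vl (res j γ) ψ μ := fun a c h1 h2 h3 => by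
  obtain ⟨b, h4, h5, h6⟩ := exists_ext_open' hj (Zc_of_pt h1 h2)
  rw [← ev_congr _ h6, ev_res hj γ h4 (h5.trans (image_subset_range _ _))]
  exact h b c h4.2 (h5.trans (image_subset_iff.2 fun x hx => congrArg j (h2 hx)))
    (by rw [← pull_pull]; exact h3.of_van hψ (h6 _))

theorem Vl.of_res [Nice X] {j : X' → X} (hj : IsOpenEmbedding j) {ψ : (Fin d → ℂ) → X'}
    (h : Vl (P291Z.res j γ) ψ μ) : Vl γ (j ∘ ψ) μ := fun a c h1 h2 h3 => by
  rw [← ev_res hj γ (Zc_of_pt h1 h2) (h2.trans (singleton_subset_iff.2 ⟨_, rfl⟩))]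
  exact h _ c (cocycle_pull hj.continuous h1) (fun x hx => hj.injective
    (h2 (supp_pull hj.continuous a hx))) (by rwa [pull_pull])

/-- one cocycle is enough in a chart of a homology manifold -/
theorem Vl.of_one (hψ : GCh ψ) {b : Coch X} (h1 : supp (δ b) = ∅) (h2 : supp b ⊆ {ψ 0})
    (h3 : LocCo (pull ψ b) 1) (e : ev γ b = μ) {β : BM X} {m : ℂ} (hβ : Val β ψ m) :
    Vl γ ψ μ := fun a c k1 k2 k3 => by
  obtain ⟨g, g1, g2⟩ := hψ.gen
  have g3 := hβ g 1 g1.cyc g1.pt g2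
  have g4 : ev γ g = ev γ g * m * ev β g := by rw [mul_assoc, g3, mul_one]
  rw [g1.ev_eq_mul g4 k1 k2, mul_assoc, hβ a c k1 k2 k3, ← e, g1.ev_eq_mul g4 h1 h2,
    mul_assoc (ev γ g) m, hβ b 1 h1 h2 h3, mul_one]

end vl

/-- **Uniqueness**: a class of top degree with value zero at one slice through every regular point
of a dense set vanishes. -/
theorem eq_zero (hY : IsAS Y ι) (hd : Dim Y ι d) {γ : BM Y.X} (hγ : BM.IsDeg (2 * d) γ)
    (h : ∀ t ∈ (preOrb hY).sm d, ∃ φ : (Fin d → ℂ) → Y.T, IsSlice Y.G ι φ ∧ φ 0 = t ∧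
      ∀ a, supp (δ a) = ∅ → supp a ⊆ {Y.π t} → LocCo (pull (Y.π ∘ φ) a) 1 → ev γ a = 0) :
    γ = 0 := by
  have h0 := preOrb hY
  have h1 := h0.holOrb_sm d
  have := h1.orb.contSMul
  have h2 := (h0.isOpen_sm d).isOpenEmbedding_subtypeVal
  have hq := isQuo_mk (G := Y.G) (T := h0.sm d)
  have := h1.niceX hq
  obtain ⟨J, h3⟩ := hq.exists_map Y.isQuo (j := Subtype.val) fun _ _ => rfl
  have h4 := hq.isOpenEmbedding Y.isQuo h2 (fun _ _ => rfl) h3
  have h5 : range J = Y.π '' (h0.sm d : Set Y.T) := by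
    rw [← image_univ, ← hq.surj.range_eq, ← range_comp, ← Subtype.range_val (s := (h0.sm d : Set Y.T)),
      ← range_comp]
    exact congrArg range (funext h3)
  have h6 := h4.isOpen_range.isClosed_compl
  refine eq_of_res_of_top h6.isClosedEmbedding_subtypeVal h4 (by rw [Subtype.range_val, compl_compl])
    ((((h5 ▸ cd_sing hY hd : CD _ (range J)ᶜ)) _ Subset.rfl h6.isLocallyClosed).mono (by omega)) hγ
    (isDeg_zero' _) ?_
  rw [map_zero, (h1.ori hq).eq_smul (hγ.res J) (l := 0) (D := univ)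
    (fun S _ h => univ_subset_iff.1 h) fun x _ => ?_, zero_smul]
  obtain ⟨t, rfl⟩ := hq.surj x
  obtain ⟨φ, k1, k2, k3⟩ := h t.1 t.2
  obtain ⟨φ', k4, k5, k6⟩ := k1.lift_lh (T' := h0.sm d) (j := Subtype.val) (t := t)
    (fun _ _ => rfl) (h2.lh _) k2
  obtain ⟨b, k7, k8⟩ := (h1.gch hq k4).gen
  have k9 := h1.val hq k4 b 1 k7.cyc k7.pt k8
  obtain ⟨b', h7, h8, h9⟩ := exists_ext_open' h4 k7.zc
  refine ⟨b, k7.cyc, k5 ▸ k7.pt, right_ne_zero_of_mul_eq_one k9, ?_⟩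
  rw [zero_mul, ← ev_congr _ h9, ev_res h4 γ h7 (h8.trans (image_subset_range _ _))]
  refine k3 b' h7.2 (h8.trans (image_subset_iff.2 fun x hx => ?_)) ?_
  · exact (congrArg J (k7.pt hx)).trans ((h3 _).trans (congrArg (fun s => Y.π s.1) k5))
  · have := k8.of_van (h1.gch hq k4).pch.cont (h9 _)
    rw [pull_pull] at this
    exact this.pull_congr (k6.mono fun z hz => ((h3 _).trans (congrArg Y.π hz)).symm)

/-- **Uniqueness**: two classes of top degree with the same values in slices agree. -/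
theorem eq_of_vl (hY : IsAS Y ι) (hd : Dim Y ι d) {γ γ' : BM Y.X} (hγ : BM.IsDeg (2 * d) γ)
    (hγ' : BM.IsDeg (2 * d) γ') (h : ∀ φ : (Fin d → ℂ) → Y.T, IsSlice Y.G ι φ →
      ∃ μ, Vl γ (Y.π ∘ φ) μ ∧ Vl γ' (Y.π ∘ φ) μ) : γ = γ' :=
  sub_eq_zero.1 (eq_zero hY hd (isDeg_sub hγ hγ') (by
    rintro _ ⟨φ, h1, rfl⟩
    obtain ⟨μ, h2, h3⟩ := h φ h1
    exact ⟨φ, h1, rfl, fun a k1 k2 k3 => by rw [h2.sub h3 a 1 k1 k2 k3, sub_self, zero_mul]⟩))

end Vale.Agent.P269L.U
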